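import Crest.Agent.IsingFactor.SolStatic

/-!
# IsingFactor.CohTree : path calculus and mass transport for `Coherent` (WP: Coh2).

Deterministic combinatorics of the tree: geodesic sub-paths, the weights `pw` (terms of `Ξ`),
the re-indexing of the double sum over `(u, j)` and the abstract mass transport.
-/

set_option autoImplicit false

namespace Crest.Agent.IsingFactor

open Finset

variable {V : Type*} [DecidableEq V] {G : SimpleGraph V}

omit [DecidableEq V] in
lemma dc (a b : V) : G.dist a b = G.dist b a := SimpleGraph.dist_comm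

/-! ### Sub-geodesics -/

lemma IsGeo.mono {x : ℕ → V} {k m : ℕ} (h : IsGeo G x k) (hm : m ≤ k) : IsGeo G x m :=
  fun i j hi hj => h i j (hi.trans hm) (hj.trans hm)

lemma IsGeo.shift {x : ℕ → V} {k a : ℕ} (h : IsGeo G x k) (ha : a ≤ k) :
    IsGeo G (fun i => x (a + i)) (k - a) := by
  intro i j hi hj
  rw [h _ _ (by omega) (by omega)]
  unfold Nat.dist
  omega

lemma IsGeo.rev {x : ℕ → V} {k : ℕ} (h : IsGeo G x k) : IsGeo G (fun i => x (k - i)) k := by
  intro i j hi hj
  rw [h _ _ (by omega) (by omega)]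
  unfold Nat.dist
  omega

lemma IsGeo.dist_eq {x : ℕ → V} {k : ℕ} (h : IsGeo G x k) {i j : ℕ} (hi : i ≤ k)
    (hij : i ≤ j) (hjk : j ≤ k) : G.dist (x i) (x j) = j - i := by
  rw [h _ _ hi hjk]
  unfold Nat.dist
  omega

section tree
variable (hT : G.IsTree)
include hT

lemma pathV_of_geo {z : ℕ → V} {m i : ℕ} (hz : IsGeo G z m) (hi : i ≤ m) :
    pathV G (z 0) (z m) i = z i :=
  (isGeo_eq_pathV hT hz hi).symm

lemma dist_pathV_left (v u : V) {j : ℕ} (hj : j ≤ G.dist v u) :
    G.dist v (pathV G v u j) = j := by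
  have := (isGeo_pathV hT v u).dist_eq (i := 0) (j := j) (Nat.zero_le _) (Nat.zero_le _) hj
  simpa [pathV_zero] using this

lemma dist_pathV_right (v u : V) {j : ℕ} (hj : j ≤ G.dist v u) :
    G.dist (pathV G v u j) u = G.dist v u - j := by
  have := (isGeo_pathV hT v u).dist_eq (i := j) (j := G.dist v u) hj hj le_rfl
  rwa [pathV_end hT] at this

lemma pathV_prefix {v u : V} {j i : ℕ} (hj : j ≤ G.dist v u) (hi : i ≤ j) :
    pathV G v (pathV G v u j) i = pathV G v u i :=
  pathV_of_geo hT ((isGeo_pathV hT v u).mono hj) hi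

lemma pathV_rev {v u : V} {j i : ℕ} (hj : j ≤ G.dist v u) (hi : i ≤ j) :
    pathV G (pathV G v u j) v i = pathV G v u (j - i) := by
  have h := pathV_of_geo hT ((isGeo_pathV hT v u).mono hj).rev hi
  simpa [pathV_zero] using h

lemma pathV_suffix {v u : V} {a i : ℕ} (ha : a ≤ G.dist v u) (hi : i ≤ G.dist v u - a) :
    pathV G (pathV G v u a) u i = pathV G v u (a + i) := by
  have h := pathV_of_geo hT ((isGeo_pathV hT v u).shift ha) hi
  have e : a + (G.dist v u - a) = G.dist v u := by omega
  simp only [add_zero, e, pathV_end hT] at h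
  exact h

lemma stepTo_pathV {v u : V} {j : ℕ} (hj : j < G.dist v u) :
    stepTo G v (pathV G v u (j + 1)) = pathV G v u j := by
  have hadj := (adj_pathV hT hj).symm
  rcases adj_cases hT (u := v) hadj with ⟨_, h⟩ | h
  · exact h.symm
  · exfalso
    have h1 := dist_pathV_left hT v u (j := j) hj.le
    have h2 := dist_pathV_left hT v u (j := j + 1) hj
    rw [dc (pathV G v u j) v, h1, dc (pathV G v u (j + 1)) v, h2] at h
    omega

/-- The parent of `y` (towards `v`) is the last but one point of the geodesic from `v` to `y`. -/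
lemma stepTo_eq_pathV {v y : V} {k : ℕ} (hk : G.dist v y = k + 1) :
    stepTo G v y = pathV G v y k := by
  have h := stepTo_pathV hT (v := v) (u := y) (j := k) (by omega)
  have e : pathV G v y (k + 1) = y := by rw [← hk]; exact pathV_end hT v y
  rwa [e] at h

lemma adj_stepTo {v y : V} (hy : y ≠ v) : G.Adj y (stepTo G v y) := (stepTo_spec hT hy).1

lemma dist_stepTo {v y : V} (hy : y ≠ v) : G.dist v (stepTo G v y) + 1 = G.dist v y := by
  have := (stepTo_spec hT hy).2
  rwa [dc (stepTo G v y) v, dc y v] at this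

/-! ### The double sum over `(u, j)` -/

variable [G.LocallyFinite]

/-- Description of the pairs `(u, y)`, `y` on the geodesic from `v` to `u`, `y ≠ v`. -/
lemma mem_pair_iff {v : V} {R : ℕ} (u y : V) :
    (u ∈ tball G v R ∧ y ∈ (range (G.dist v u)).image (fun j => pathV G v u (j + 1))) ↔
      (u ∈ tsub G y (stepTo G v y) (R - G.dist v y) ∧ y ∈ (tball G v R).erase v) := by
  constructor
  · rintro ⟨hu, hy⟩
    obtain ⟨j, hj, rfl⟩ := mem_image.1 hy
    have hj' : j < G.dist v u := mem_range.1 hj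
    have hu' : G.dist v u ≤ R := (mem_tball hT).1 hu
    have hd := dist_pathV_left hT v u (j := j + 1) hj'
    have hp := stepTo_pathV hT hj'
    have hne : pathV G v u (j + 1) ≠ v := by
      intro h
      rw [h, SimpleGraph.dist_self] at hd
      omega
    refine ⟨?_, mem_erase.2 ⟨hne, (mem_tball hT).2 (by omega)⟩⟩
    rw [hp, hd]
    unfold tsub sideF
    refine mem_filter.2 ⟨(mem_tball hT).2 ?_, ?_⟩
    · rw [dist_pathV_right hT v u hj']
      omega
    · rw [dc u, dc u, dist_pathV_right hT v u hj', dist_pathV_right hT v u hj'.le]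
      omega
  · rintro ⟨hu, hy⟩
    obtain ⟨hne, hyB⟩ := mem_erase.1 hy
    have hyR : G.dist v y ≤ R := (mem_tball hT).1 hyB
    unfold tsub sideF at hu
    obtain ⟨hu1, hu2⟩ := mem_filter.1 hu
    have hu1' := (mem_tball hT).1 hu1
    have hadj := adj_stepTo hT hne
    have hds := dist_stepTo hT hne
    -- `v` is on the parent side, `u` on the `y` side
    have hacross := dist_across hT (a := stepTo G v y) (b := y) (x := v) (y := u) hadj.symm
      (by omega) hu2
    have hsum : G.dist v y + G.dist y u = G.dist v u := by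
      rw [hacross]; omega
    have hmem := (dist_add_eq_iff_mem_path hT).1 hsum
    obtain ⟨j, hj, hyj⟩ := hmem
    have hdy := dist_pathV_left hT v u hj
    rw [← hyj] at hdy
    refine ⟨(mem_tball hT).2 (by omega), ?_⟩
    have hj0 : j ≠ 0 := by
      intro h0
      rw [h0] at hyj
      exact hne (hyj.trans (pathV_zero v u))
    obtain ⟨j', rfl⟩ := Nat.exists_eq_succ_of_ne_zero hj0
    exact mem_image.2 ⟨j', mem_range.2 (by omega), hyj.symm⟩

/-- The re-indexing of the double sum. -/
lemma sum_pair_eq {v : V} (R : ℕ) (f : V → V → ℝ) :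
    ∑ u ∈ tball G v R, ∑ j ∈ range (G.dist v u), f u (pathV G v u (j + 1)) =
      ∑ y ∈ (tball G v R).erase v, ∑ u ∈ tsub G y (stepTo G v y) (R - G.dist v y), f u y := by
  have h1 : ∀ u, ∑ j ∈ range (G.dist v u), f u (pathV G v u (j + 1)) =
      ∑ y ∈ (range (G.dist v u)).image (fun j => pathV G v u (j + 1)), f u y := by
    intro u
    rw [sum_image]
    intro a ha b hb hab
    have ha' := mem_range.1 (mem_coe.1 ha)
    have hb' := mem_range.1 (mem_coe.1 hb)
    have h1 := dist_pathV_left hT v u (j := a + 1) ha'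
    have h2 := dist_pathV_left hT v u (j := b + 1) hb'
    simp only at hab
    rw [hab] at h1
    omega
  simp only [h1]
  exact sum_comm' (fun u y => mem_pair_iff hT u y)

/-! ### Decomposition in levels -/

lemma sum_ball_erase_levels {v : V} (R : ℕ) (f : V → ℝ) :
    ∑ y ∈ (tball G v (R + 1)).erase v, f y =
      ∑ k ∈ range (R + 1), ∑ y ∈ (tball G v (k + 1)).filter (fun w => G.dist v w = k + 1), f y := by
  have hmaps : ∀ y ∈ (tball G v (R + 1)).erase v, G.dist v y - 1 ∈ range (R + 1) := by
    intro y hy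
    have := (mem_tball hT).1 (mem_of_mem_erase hy)
    exact mem_range.2 (by omega)
  rw [← sum_fiberwise_of_maps_to hmaps]
  refine sum_congr rfl fun k hk => ?_
  have hk' := mem_range.1 hk
  refine sum_congr ?_ fun _ _ => rfl
  ext y
  simp only [mem_filter, mem_erase, mem_tball hT]
  constructor
  · rintro ⟨⟨hne, hy⟩, hd⟩
    have hpos : G.dist v y ≠ 0 := by
      intro h0
      have hr := (isGeo_pathV hT v y)
      have : y = v := by
        have h := pathV_end hT (G := G) v y
        rw [h0] at h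
        exact h.symm.trans (pathV_zero v y)
      exact hne this
    omega
  · rintro ⟨hy, hd⟩
    refine ⟨⟨?_, by omega⟩, by omega⟩
    rintro rfl
    rw [SimpleGraph.dist_self] at hd
    omega

lemma sum_ball_levels {v : V} (R : ℕ) (f : V → ℝ) :
    ∑ y ∈ tball G v R, f y =
      ∑ k ∈ range (R + 1), ∑ y ∈ (tball G v k).filter (fun w => G.dist v w = k), f y := by
  have hmaps : ∀ y ∈ tball G v R, G.dist v y ∈ range (R + 1) := by
    intro y hy
    have := (mem_tball hT).1 hy
    exact mem_range.2 (by omega)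
  rw [← sum_fiberwise_of_maps_to hmaps]
  refine sum_congr rfl fun k hk => ?_
  have hk' := mem_range.1 hk
  refine sum_congr ?_ fun _ _ => rfl
  ext y
  simp only [mem_filter, mem_tball hT]
  constructor
  · rintro ⟨hy, hd⟩
    exact ⟨by omega, hd⟩
  · rintro ⟨hy, hd⟩
    exact ⟨by omega, hd⟩

lemma sum_tsub_levels {x y : V} (R : ℕ) (f : V → ℝ) :
    ∑ w ∈ tsub G x y R, f w =
      ∑ k ∈ range (R + 1), ∑ w ∈ (tsub G x y k).filter (fun w => G.dist x w = k), f w := by
  have hmaps : ∀ w ∈ tsub G x y R, G.dist x w ∈ range (R + 1) := by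
    intro w hw
    unfold tsub sideF at hw
    have := (mem_tball hT).1 (mem_filter.1 hw).1
    exact mem_range.2 (by omega)
  rw [← sum_fiberwise_of_maps_to hmaps]
  refine sum_congr rfl fun k hk => ?_
  have hk' := mem_range.1 hk
  refine sum_congr ?_ fun _ _ => rfl
  ext w
  simp only [tsub, sideF, mem_filter, mem_tball hT]
  constructor
  · rintro ⟨⟨hw, hlt⟩, hd⟩
    exact ⟨⟨by omega, hlt⟩, hd⟩
  · rintro ⟨⟨hw, hlt⟩, hd⟩
    exact ⟨⟨by omega, hlt⟩, hd⟩

/-! ### Abstract mass transport -/

section transport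
variable {q : ℕ} (hreg : G.IsRegularOfDegree (q + 1)) (hq : 1 ≤ q)
include hreg

/-- The geodesic data of a point at depth `k` in `T(x₀ → y₀)`. -/
lemma geo_side {x₀ y₀ w : V} (hadj : G.Adj y₀ x₀) {k : ℕ}
    (hw : w ∈ (tsub G x₀ y₀ k).filter (fun w => G.dist x₀ w = k)) :
    G.dist w y₀ = k + 1 ∧ pathV G w y₀ k = x₀ ∧ pathV G w y₀ (k + 1) = y₀ := by
  obtain ⟨hw1, hd⟩ := mem_filter.1 hw
  unfold tsub sideF at hw1
  obtain ⟨_, hlt⟩ := mem_filter.1 hw1
  have hcases := dist_adj_cases hT hadj w
  have hd' : G.dist w x₀ = k := by rwa [dc]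
  have h1 : G.dist w y₀ = k + 1 := by omega
  refine ⟨h1, ?_, ?_⟩
  · have hsum : G.dist w x₀ + G.dist x₀ y₀ = G.dist w y₀ := by
      have : G.dist x₀ y₀ = 1 := by
        rw [dc]; exact SimpleGraph.dist_eq_one_iff_adj.2 hadj
      omega
    obtain ⟨j, hj, hxj⟩ := (dist_add_eq_iff_mem_path hT).1 hsum
    have := dist_pathV_left hT w y₀ hj
    rw [← hxj, hd'] at this
    rw [this]
    exact hxj.symm
  · rw [← h1]; exact pathV_end hT w y₀

/-- Invariant functions of an edge and a point are constant on the levels. -/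
theorem transport_value {val : V → V → V → ℝ}
    (hinv : ∀ (g : G ≃g G) (a b c : V), G.Adj c b → val (g a) (g b) (g c) = val a b c)
    {v y x₀ y₀ w : V} {k : ℕ} (hadj : G.Adj y₀ x₀) (hy : G.dist v y = k + 1)
    (hw : w ∈ (tsub G x₀ y₀ k).filter (fun w => G.dist x₀ w = k)) :
    val v (stepTo G v y) y = val w x₀ y₀ := by
  obtain ⟨h1, h2, h3⟩ := geo_side hT hreg hadj hw
  have hg1 : IsGeo G (pathV G v y) (k + 1) := by
    have := isGeo_pathV hT v y
    rwa [hy] at this
  have hg2 : IsGeo G (pathV G w y₀) (k + 1) := by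
    have := isGeo_pathV hT w y₀
    rwa [h1] at this
  obtain ⟨g, hg⟩ := exists_aut_of_geo hT hreg hg1 hg2
  have e0 := hg 0 (Nat.zero_le _)
  have ek := hg k (Nat.le_succ _)
  have ek1 := hg (k + 1) le_rfl
  simp only [pathV_zero] at e0
  have hend : pathV G v y (k + 1) = y := by
    rw [← hy]; exact pathV_end hT v y
  have hpar : stepTo G v y = pathV G v y k := stepTo_eq_pathV hT hy
  have hne : y ≠ v := by
    rintro rfl
    rw [SimpleGraph.dist_self] at hy
    omega
  rw [hend, h3] at ek1
  rw [h2, ← hpar] at ek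
  have := hinv g v (stepTo G v y) y (adj_stepTo hT hne)
  rw [e0, ek, ek1] at this
  exact this.symm

include hq in
/-- Mass transport, one level. -/
theorem transport_level {val : V → V → V → ℝ}
    (hinv : ∀ (g : G ≃g G) (a b c : V), G.Adj c b → val (g a) (g b) (g c) = val a b c)
    (v : V) {x₀ y₀ : V} (hadj : G.Adj y₀ x₀) (k : ℕ) :
    ∑ y ∈ (tball G v (k + 1)).filter (fun w => G.dist v w = k + 1), val v (stepTo G v y) y =
      (q + 1) * ∑ w ∈ (tsub G x₀ y₀ k).filter (fun w => G.dist x₀ w = k), val w x₀ y₀ := by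
  have hcard₂ := card_sphere_side hT hreg hadj.symm k
  have hne : ((tsub G x₀ y₀ k).filter (fun w => G.dist x₀ w = k)).Nonempty := by
    rw [← card_pos, hcard₂]
    exact pow_pos hq k
  obtain ⟨z, hz⟩ := hne
  have hL : ∀ y ∈ (tball G v (k + 1)).filter (fun w => G.dist v w = k + 1),
      val v (stepTo G v y) y = val z x₀ y₀ := fun y hy =>
    transport_value hT hreg hinv hadj (mem_filter.1 hy).2 hz
  have hR : ∀ w ∈ (tsub G x₀ y₀ k).filter (fun w => G.dist x₀ w = k),
      val w x₀ y₀ = val z x₀ y₀ := by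
    intro w hw
    obtain ⟨h1, h2, h3⟩ := geo_side hT hreg hadj hw
    obtain ⟨h1', h2', h3'⟩ := geo_side hT hreg hadj hz
    have hg1 : IsGeo G (pathV G w y₀) (k + 1) := by
      have := isGeo_pathV hT w y₀
      rwa [h1] at this
    have hg2 : IsGeo G (pathV G z y₀) (k + 1) := by
      have := isGeo_pathV hT z y₀
      rwa [h1'] at this
    obtain ⟨g, hg⟩ := exists_aut_of_geo hT hreg hg1 hg2
    have e0 := hg 0 (Nat.zero_le _)
    have ek := hg k (Nat.le_succ _)
    have ek1 := hg (k + 1) le_rfl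
    simp only [pathV_zero] at e0
    rw [h3, h3'] at ek1
    rw [h2, h2'] at ek
    have := hinv g w x₀ y₀ hadj
    rw [e0, ek, ek1] at this
    exact this.symm
  rw [sum_congr rfl hL, sum_congr rfl hR, sum_const, sum_const, card_sphere hT hreg, hcard₂]
  simp only [nsmul_eq_mul, Nat.add_sub_cancel, Nat.succ_ne_zero, if_false]
  push_cast
  ring

include hq in
/-- Mass transport. -/
theorem transport_sum {val : V → V → V → ℝ}
    (hinv : ∀ (g : G ≃g G) (a b c : V), G.Adj c b → val (g a) (g b) (g c) = val a b c)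
    (v : V) {x₀ y₀ : V} (hadj : G.Adj y₀ x₀) (R : ℕ) :
    ∑ y ∈ (tball G v (R + 1)).erase v, val v (stepTo G v y) y =
      (q + 1) * ∑ w ∈ tsub G x₀ y₀ R, val w x₀ y₀ := by
  rw [sum_ball_erase_levels hT, sum_tsub_levels hT, mul_sum]
  exact sum_congr rfl fun k _ => transport_level hT hreg hq hinv v hadj k

end transport

end tree

end Crest.Agent.IsingFactor
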