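import Crest.Agent.IsingFactor.MergeDefs
import Crest.Agent.IsingFactor.MergeMoments
import Crest.Agent.IsingFactor.MergeConvex
import Crest.Agent.IsingFactor.MergeMass
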